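import Vale.Agent.P141.H508.OwnC

/-!
# P141, line (A), static cut of `v` at the dense fibres: own energies of the part on `D`

`s4_blockD` : one square of the slot `F2 v 1_D`, only the line energies of `F2` and the columns of
`D` on the alive squares.
`famK_D` : the slot as a family `FamK`; own energies `8 Λ (cP + 2) del ez² A2 8 ^ K`, `del` the
bound of the columns of `D`.
-/

namespace Vale.Agent.P141.H475

open Finset Matrix
open Vale.Agent.P141.PL (Pt iv ix mem_iv ix_ix cx)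
open Vale.Agent.P141.PL.H315 (A2 avg avg_nonneg)
open Vale.Agent.P141.H550 (avg_congr avg_mono avg_const avg_mul_left avg_mul_right avg_comm
  avg_mul_sq_le)
open Vale.Agent.P141.H736 (Path sqb sqQ)
open Vale.Agent.P141.H958 (Aff s4 pwr mem_Aff sum_Aff PackQ)
open Vale.Agent.P141.H48 (own4 pth Qth sst BSl Mo4 A4 ES)
open Vale.Agent.P141.H677 (kF fC)
open Vale.Agent.P141.H205 (FamK ownK pwrK GQ tr_GQ_sq s4_un)
open Vale.Agent.P141.H508
open Vale.Agent.P141.H769 (s4_avg sum_eq_avg s4_congr s4_zero sst_congr ix_of_le corner not_sst_le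
  slice_sum root_pack Qcb ptiv_congr ix_two_pow_mul)

noncomputable section

open scoped Classical

variable {κ : Type*} [Fintype κ]

variable {Λ : ℝ} {a : ℤ × ℤ → ℝ} {K : ℕ} {F : ℕ → Pt → ℝ} {v : ℤ → ℤ → κ → ℝ}
  {D : ℤ → ℤ → Prop}

/-- the gauge on `D` -/
def aD (a : ℤ × ℤ → ℝ) (D : ℤ → ℤ → Prop) (x z : ℤ) : ℝ := if D x z then a (x, z) else 0

/-- the scalar majorant of the slot on `D` -/
def pD (Λ : ℝ) (a : ℤ × ℤ → ℝ) (D : ℤ → ℤ → Prop) (K : ℕ) (F : ℕ → Pt → ℝ) (x0 : ℤ) (k : ℕ)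
    (x z : ℤ) : ℝ := aD a D x z * |kF Λ a K F k (x0, x, z)|

/-- The vectors of the slot against the scalar majorant. -/
theorem vecD_le {x z z' : ℤ} (x0 : ℤ) (k : ℕ) (h0 : 0 ≤ aD a D x z) (h0' : 0 ≤ aD a D x z')
    (h1 : v x z ⬝ᵥ v x z ≤ aD a D x z ^ 2) (h1' : v x z' ⬝ᵥ v x z' ≤ aD a D x z' ^ 2) :
    |fC v (kF Λ a K F) x0 k z x ⬝ᵥ fC v (kF Λ a K F) x0 k z' x| ≤
      pD Λ a D K F x0 k x z * pD Λ a D K F x0 k x z' := by
  have h2 := dot_abs_le h0 h0' h1 h1'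
  unfold fC pD
  rw [smul_dotProduct, dotProduct_smul, smul_eq_mul, smul_eq_mul, abs_mul, abs_mul]
  calc |kF Λ a K F k (x0, x, z)| * (|kF Λ a K F k (x0, x, z')| * |v x z ⬝ᵥ v x z'|)
      ≤ |kF Λ a K F k (x0, x, z)| * (|kF Λ a K F k (x0, x, z')| *
          (aD a D x z * aD a D x z')) := by gcongr
    _ = _ := by ring

/-- Own energies of the slot against the scalar majorant. -/
theorem ownK_leD {R S : ℤ} (ha : ∀ x ∈ iv K R, ∀ z ∈ iv K S, 0 ≤ aD a D x z ∧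
      v x z ⬝ᵥ v x z ≤ aD a D x z ^ 2) (x0 : ℤ) (Q : ℕ → ℤ → ℤ → Prop) :
    ownK K R S Q (fun k x z => fC v (kF Λ a K F) x0 k z x) ≤
      own4 K R S Q (pD Λ a D K F x0) := by
  unfold ownK own4
  refine sum_le_sum fun i hi => ?_
  rw [mem_Aff] at hi
  refine mul_le_mul_of_nonneg_left ?_ (by positivity)
  rw [s4_un, tr_GQ_sq, tr_GQ_sq]
  refine mul_le_mul_of_nonneg_left ?_ (by positivity)
  refine sum_le_sum fun z hz => sum_le_sum fun z' hz' => ?_
  have hz1 := root_mem hi.1.le hi.2.2.1 hz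
  have hz1' := root_mem hi.1.le hi.2.2.1 hz'
  have key : ∀ x ∈ iv i.1 i.2.1, |fC v (kF Λ a K F) x0 (i.1 + 1) z x ⬝ᵥ
      fC v (kF Λ a K F) x0 (i.1 + 1) z' x| ≤
      H103.un (pD Λ a D K F x0 (i.1 + 1)) x z ⬝ᵥ H103.un (pD Λ a D K F x0 (i.1 + 1)) x z' := by
    intro x hx
    have hx1 := root_mem hi.1.le hi.2.1 hx
    refine (vecD_le x0 (i.1 + 1) (ha x hx1 z hz1).1 (ha x hx1 z' hz1').1 (ha x hx1 z hz1).2
      (ha x hx1 z' hz1').2).trans (le_of_eq ?_)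
    simp [H103.un, dotProduct]
  refine sq_le_sq' ?_ ?_
  · rw [neg_le]
    exact (neg_le_abs _).trans ((abs_sum_le_sum_abs _ _).trans (sum_le_sum key))
  · exact (le_abs_self _).trans ((abs_sum_le_sum_abs _ _).trans (sum_le_sum key))

/-- Mean form of the line energies. -/
theorem line2 {n : ℕ} {e cP : ℝ} {Q : ℕ → Pt → Prop} (h : BSl n e cP F Q) {k : ℕ} (hk : k < n)
    (m z x : ℤ) : (avg (iv k m) fun y => F (k + 1) (z, x, y) ^ 2) ≤ e := by
  have h1 := h.l2 k hk m z x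
  rw [sum_eq_avg, mul_comm] at h1
  exact le_of_mul_le_mul_right h1 (by positivity)

/-- **One square of `F2 v 1_D`** at one point `x0`. -/
theorem s4_sqD {n : ℕ} {e cP del : ℝ} {Q : ℕ → Pt → Prop} (he : 0 ≤ e) (h : BSl n e cP F Q)
    {k : ℕ} (hk : k < n) {r s : ℤ} {p : ℤ → ℤ → ℝ} {x0 : ℤ}
    (ha1 : ∀ x ∈ iv k r, ∀ y ∈ iv k s, 0 ≤ a (x, y) ∧ a (x, y) ≤ 1)
    (hp : ∀ x ∈ iv k r, ∀ y ∈ iv k s, p x y = aD a D x y * |F (k + 1) (x0, x, y)|)
    (hcol : ∀ y ∈ iv k s, (avg (iv k r) fun x => if D x y then (1 : ℝ) else 0) ≤ del) :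
    s4 k k p r s ≤ e * (del * avg (iv k r) fun x => avg (iv k s) fun y => p x y ^ 2) := by
  rw [s4_avg]
  have h1 : ∀ x ∈ iv k r, ∀ c ∈ iv k r, (avg (iv k s) fun y => p x y * p c y) ^ 2 ≤
      e * avg (iv k s) fun y => (if D x y then (1 : ℝ) else 0) * p c y ^ 2 := by
    intro x hx c hc
    have e1 : (avg (iv k s) fun y => p x y * p c y) =
        avg (iv k s) fun y => |F (k + 1) (x0, x, y)| * (aD a D x y * p c y) :=
      avg_congr fun y hy => by rw [hp x hx y hy]; ring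
    rw [e1]
    refine (avg_mul_sq_le _ _ _).trans ?_
    have e2 : (avg (iv k s) fun y => |F (k + 1) (x0, x, y)| ^ 2) ≤ e := by
      simp only [sq_abs]
      exact line2 h hk s x0 x
    refine mul_le_mul e2 (avg_mono fun y hy => ?_) (avg_nonneg fun _ _ => sq_nonneg _) he
    rw [mul_pow]
    refine mul_le_mul_of_nonneg_right ?_ (sq_nonneg _)
    unfold aD
    obtain ⟨h2, h3⟩ := ha1 x hx y hy
    split_ifs
    · nlinarith
    · norm_num
  calc (avg (iv k r) fun x => avg (iv k r) fun c => (avg (iv k s) fun y => p x y * p c y) ^ 2)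
      ≤ avg (iv k r) fun x => avg (iv k r) fun c => e * avg (iv k s) fun y =>
          (if D x y then (1 : ℝ) else 0) * p c y ^ 2 :=
        avg_mono fun x hx => avg_mono fun c hc => h1 x hx c hc
    _ = e * avg (iv k r) fun c => avg (iv k s) fun y =>
          (avg (iv k r) fun x => if D x y then (1 : ℝ) else 0) * p c y ^ 2 := by
        simp only [avg_mul_left]
        congr 1
        rw [avg_comm]
        refine avg_congr fun c _ => ?_
        rw [avg_comm]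
        exact avg_congr fun y _ => avg_mul_right _ _ _
    _ ≤ e * avg (iv k r) fun c => avg (iv k s) fun y => del * p c y ^ 2 := by
        refine mul_le_mul_of_nonneg_left ?_ he
        exact avg_mono fun c _ => avg_mono fun y hy =>
          mul_le_mul_of_nonneg_right (hcol y hy) (sq_nonneg _)
    _ = _ := by simp only [avg_mul_left]

/-- Columns of `D` on a child of an alive square. -/
theorem col_child {del : ℝ} {k : ℕ} {r y : ℤ}
    (h : ∑ x ∈ iv (k + 1) (ix 1 r), (if D x y then (1 : ℝ) else 0) ≤ del * 2 ^ (k + 1)) :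
    (avg (iv k r) fun x => if D x y then (1 : ℝ) else 0) ≤ 2 * del := by
  have h1 : ∑ x ∈ iv k r, (if D x y then (1 : ℝ) else 0) ≤
      ∑ x ∈ iv (k + 1) (ix 1 r), (if D x y then (1 : ℝ) else 0) := by
    refine sum_le_sum_of_subset_of_nonneg ?_ fun x _ _ => by split_ifs <;> norm_num
    intro x hx
    rw [mem_iv] at hx ⊢
    rw [← ix_ix, hx]
  rw [sum_eq_avg] at h1
  have h2 := h1.trans h
  have h3 : (2 : ℝ) ^ k * (avg (iv k r) fun x => if D x y then (1 : ℝ) else 0) ≤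
      2 ^ k * (2 * del) := h2.trans (le_of_eq (by rw [pow_succ]; ring))
  exact le_of_mul_le_mul_left h3 (by positivity)

/-- **Blocks of `F2 v 1_D`**, sum over the slices. -/
theorem s4_blockD {n : ℕ} {e cP del : ℝ} {Q : ℕ → Pt → Prop} (hΛ : 1 ≤ Λ) (he : 0 ≤ e)
    (h : BSl n e cP F Q) (hK : K ≤ n) {k : ℕ} (hk : k < K) (q0 r s : ℤ) {X Y : ℤ}
    (hX : ix (K - k) r = ix K X) (hY : ix (K - k) s = ix K Y) (hdel : 0 ≤ del)
    (ha1 : ∀ x ∈ iv K (ix K X), ∀ y ∈ iv K (ix K Y), 0 ≤ a (x, y) ∧ a (x, y) ≤ 1)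
    (hcol : ∀ j ≤ K, ∀ x ∈ iv K (ix K X), ∀ y ∈ iv K (ix K Y), ¬ sst Λ a K j x y →
      ∑ x' ∈ iv j (ix j x), (if D x' y then (1 : ℝ) else 0) ≤ del * 2 ^ j) :
    ∑ x0 ∈ iv k q0, s4 k k (pD Λ a D K F x0 (k + 1)) r s ≤
      2 ^ k * (8 * Λ * del * e ^ 2 * A2 K a X Y) := by
  have hA2 : 0 ≤ A2 K a X Y := PL.H315.A2_nonneg _ _ _ _
  have hpos : 0 ≤ 2 ^ k * (8 * Λ * del * e ^ 2 * A2 K a X Y) := by positivity
  have hcx : ix K (2 ^ k * r) = ix K X := by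
    rw [← hX, ← Nat.add_sub_cancel' hk.le, ← ix_ix, ix_two_pow_mul, Nat.add_sub_cancel_left]
  have hcy : ix K (2 ^ k * s) = ix K Y := by
    rw [← hY, ← Nat.add_sub_cancel' hk.le, ← ix_ix, ix_two_pow_mul, Nat.add_sub_cancel_left]
  by_cases hst : sst Λ a K (k + 1) (2 ^ k * r) (2 ^ k * s)
  · refine le_trans (le_of_eq ?_) hpos
    refine sum_eq_zero fun x0 _ => ?_
    rw [s4_congr (F' := fun _ _ => 0), s4_zero]
    intro x hx y hy
    unfold pD kF
    rw [if_pos, abs_zero, mul_zero]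
    right
    exact (sst_congr (ix_of_le (Nat.le_succ k) (corner k hx))
      (ix_of_le (Nat.le_succ k) (corner k hy))).2 hst
  · have hmx : ∀ x ∈ iv k r, x ∈ iv K (ix K X) := fun x hx => by
      rw [mem_iv] at hx ⊢
      rw [← Nat.add_sub_cancel' hk.le, ← ix_ix, hx, hX, Nat.add_sub_cancel' hk.le]
    have hmy : ∀ y ∈ iv k s, y ∈ iv K (ix K Y) := fun y hy => by
      rw [mem_iv] at hy ⊢
      rw [← Nat.add_sub_cancel' hk.le, ← ix_ix, hy, hY, Nat.add_sub_cancel' hk.le]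
    have hal : ∀ x ∈ iv k r, ∀ y ∈ iv k s, ¬ sst Λ a K (k + 1) x y := fun x hx y hy hs =>
      hst ((sst_congr (ix_of_le (Nat.le_succ k) (corner k hx))
        (ix_of_le (Nat.le_succ k) (corner k hy))).1 hs)
    have hp : ∀ x0, ∀ x ∈ iv k r, ∀ y ∈ iv k s, pD Λ a D K F x0 (k + 1) x y =
        aD a D x y * |F (k + 1) (x0, x, y)| := by
      intro x0 x hx y hy
      unfold pD kF
      rw [if_neg]
      push Not
      exact ⟨by omega, hal x hx y hy⟩
    have hc : ∀ y ∈ iv k s, (avg (iv k r) fun x => if D x y then (1 : ℝ) else 0) ≤ 2 * del := by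
      intro y hy
      have hx : 2 ^ k * r ∈ iv k r := by rw [mem_iv, ix_two_pow_mul]
      have h1 := hcol (k + 1) hk (2 ^ k * r) (hmx _ hx) y (hmy y hy) (hal _ hx y hy)
      have e1 : ix (k + 1) (2 ^ k * r) = ix 1 r := by rw [← ix_ix, ix_two_pow_mul]
      rw [e1] at h1
      exact col_child h1
    have h1 : ∀ x0 ∈ iv k q0, s4 k k (pD Λ a D K F x0 (k + 1)) r s ≤
        e * ((2 * del) * avg (iv k r) fun x => avg (iv k s) fun y =>
          pD Λ a D K F x0 (k + 1) x y ^ 2) := fun x0 _ =>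
      s4_sqD he h (hk.trans_le hK)
        (fun x hx y hy => ha1 x (hmx x hx) y (hmy y hy)) (hp x0) hc
    refine (sum_le_sum h1).trans ?_
    rw [← mul_sum, ← mul_sum, sum_eq_avg]
    have h2 : (avg (iv k q0) fun x0 => avg (iv k r) fun x => avg (iv k s) fun y =>
        pD Λ a D K F x0 (k + 1) x y ^ 2) ≤ e * A2 k a (2 ^ k * r) (2 ^ k * s) := by
      have h3 : ∀ x0 ∈ iv k q0, (avg (iv k r) fun x => avg (iv k s) fun y =>
          pD Λ a D K F x0 (k + 1) x y ^ 2) ≤ avg (iv k r) fun x => avg (iv k s) fun y =>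
          F (k + 1) (x0, x, y) ^ 2 * a (x, y) ^ 2 := by
        intro x0 _
        refine avg_mono fun x hx => avg_mono fun y hy => ?_
        rw [hp x0 x hx y hy, mul_pow, sq_abs, mul_comm]
        refine mul_le_mul_of_nonneg_left ?_ (sq_nonneg _)
        unfold aD
        split_ifs
        · exact le_rfl
        · rw [zero_pow (by norm_num)]
          exact sq_nonneg _
      refine (avg_mono h3).trans ?_
      rw [avg_comm]
      have h4 : ∀ x ∈ iv k r, (avg (iv k q0) fun x0 => avg (iv k s) fun y =>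
          F (k + 1) (x0, x, y) ^ 2 * a (x, y) ^ 2) ≤ avg (iv k s) fun y => e * a (x, y) ^ 2 := by
        intro x _
        rw [avg_comm]
        refine avg_mono fun y _ => ?_
        rw [avg_mul_right]
        refine mul_le_mul_of_nonneg_right ?_ (sq_nonneg _)
        have h5 := h.l0 k (hk.trans_le hK) q0 x y
        rw [sum_eq_avg, mul_comm] at h5
        exact le_of_mul_le_mul_right h5 (by positivity)
      refine (avg_mono h4).trans (le_of_eq ?_)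
      simp only [avg_mul_left]
      congr 1
      unfold A2
      rw [← H769.iv_ix, ← H769.iv_ix, H550.avg_prod]
    obtain ⟨h6, _⟩ := not_sst_le hk hst
    have e4 : A2 K a (2 ^ k * r) (2 ^ k * s) = A2 K a X Y := by
      unfold A2
      rw [ptiv_congr hcx, ptiv_congr hcy]
    rw [e4] at h6
    calc e * (2 * del * (2 ^ k * avg (iv k q0) fun x0 => avg (iv k r) fun x =>
          avg (iv k s) fun y => pD Λ a D K F x0 (k + 1) x y ^ 2))
        ≤ e * (2 * del * (2 ^ k * (e * (4 * (Λ * A2 K a X Y))))) := by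
          gcongr
          exact h2.trans (mul_le_mul_of_nonneg_left h6 he)
      _ = _ := by ring

/-- **Own energies of `F2 v 1_D`**, sum over `x0`. -/
theorem own_D {n : ℕ} {e cP del : ℝ} {Q : ℕ → Pt → Prop} (hΛ : 1 ≤ Λ) (he : 0 ≤ e)
    (h : BSl n e cP F Q) (hK : K ≤ n) (t0 X Y : ℤ) (hdel : 0 ≤ del)
    (ha1 : ∀ x ∈ iv K (ix K X), ∀ y ∈ iv K (ix K Y), 0 ≤ a (x, y) ∧ a (x, y) ≤ 1)
    (hcol : ∀ j ≤ K, ∀ x ∈ iv K (ix K X), ∀ y ∈ iv K (ix K Y), ¬ sst Λ a K j x y →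
      ∑ x' ∈ iv j (ix j x), (if D x' y then (1 : ℝ) else 0) ≤ del * 2 ^ j) :
    ∑ x0 ∈ iv K t0, own4 K (ix K X) (ix K Y) (Qth Λ a K Q x0) (pD Λ a D K F x0) ≤
      8 * Λ * (cP + 2) * del * e ^ 2 * A2 K a X Y * 8 ^ K := by
  have hA2 : 0 ≤ A2 K a X Y := PL.H315.A2_nonneg _ _ _ _
  have hroot : ∀ (f : ℕ → ℤ → ℤ → ℝ) (P : ℕ → ℤ → ℤ → Prop) (R S : ℤ), ∑ k ∈ range K,
      ∑ m ∈ iv (K - k) S, ∑ r ∈ iv (K - k) R, (if P k r m then f k r m else 0) =
      ∑ k ∈ range K, ∑ m ∈ iv (K - k) S, ∑ r ∈ iv (K - k) R,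
        (if P k r m then (if ix (K - k) r = R ∧ ix (K - k) m = S then f k r m else 0) else 0) := by
    intro f P R S
    refine sum_congr rfl fun k _ => sum_congr rfl fun m hm => sum_congr rfl fun r hr => ?_
    rw [if_pos (show ix (K - k) r = R ∧ ix (K - k) m = S from ⟨mem_iv.1 hr, mem_iv.1 hm⟩)]
  have e1 : ∀ x0 ∈ iv K t0, own4 K (ix K X) (ix K Y) (Qth Λ a K Q x0) (pD Λ a D K F x0) =
      ∑ k ∈ range K, ∑ m ∈ iv (K - k) (ix K Y), ∑ r ∈ iv (K - k) (ix K X),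
        (if Qcb Λ a K Q k (ix k x0, r, m) then
          (if ix (K - k) r = ix K X ∧ ix (K - k) m = ix K Y then
            4 ^ k * s4 k k (pD Λ a D K F x0 (k + 1)) r m else 0) else 0) := by
    intro x0 _
    unfold own4
    rw [sum_Aff, hroot (fun k r m => 4 ^ k * s4 k k (pD Λ a D K F x0 (k + 1)) r m)]
    rfl
  rw [sum_congr rfl e1]
  have h1 := slice_sum (K := K) (t0 := t0) (R := ix K X) (S := ix K Y) (c := cP + 2)
    (μ := 8 * Λ * del * e ^ 2 * A2 K a X Y) (Q := Qcb Λ a K Q)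
    (T := fun x0 k r m => if ix (K - k) r = ix K X ∧ ix (K - k) m = ix K Y then
            4 ^ k * s4 k k (pD Λ a D K F x0 (k + 1)) r m else 0) (by positivity)
    (by
      intro k hk q0 r m
      by_cases hh : ix (K - k) r = ix K X ∧ ix (K - k) m = ix K Y
      · simp only [if_pos hh]
        rw [← mul_sum]
        have h2 := s4_blockD hΛ he h hK hk q0 r m hh.1 hh.2 hdel ha1 hcol
        have h8 : (8 : ℝ) ^ k = 4 ^ k * 2 ^ k := by rw [← mul_pow]; norm_num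
        rw [h8, mul_assoc]
        exact mul_le_mul_of_nonneg_left h2 (by positivity)
      · simp only [if_neg hh, sum_const_zero]
        positivity)
    (fun x0 => root_pack h a hK (ix K X) (ix K Y) x0)
  refine h1.trans (le_of_eq ?_)
  ring

/-- **The slot `F2 v 1_D` as a family**, numbers `8 Λ (cP + 2) del ez² A2`,
`4 Λ (cP + 2) ez A2`. -/
theorem famK_D {n : ℕ} {e cP del : ℝ} {Q : ℕ → Pt → Prop} (hΛ : 1 ≤ Λ) (he : 0 ≤ e)
    (hcP : 0 ≤ cP) (h : BSl n e cP F Q) (hK : K ≤ n) {x1 x3 : ℤ} (hdel : 0 ≤ del)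
    (ha : ∀ x ∈ iv K (ix K x1), ∀ z ∈ iv K (ix K x3),
      0 ≤ a (x, z) ∧ a (x, z) ≤ 1 ∧ v x z ⬝ᵥ v x z ≤ a (x, z) ^ 2)
    (hv0 : ∀ x ∈ iv K (ix K x1), ∀ z ∈ iv K (ix K x3), ¬ D x z → v x z = 0)
    (hcol : ∀ j ≤ K, ∀ x ∈ iv K (ix K x1), ∀ z ∈ iv K (ix K x3), ¬ sst Λ a K j x z →
      ∑ x' ∈ iv j (ix j x), (if D x' z then (1 : ℝ) else 0) ≤ del * 2 ^ j) (t : ℤ) :
    FamK K (ix K x1) (ix K x3) (iv K t) (fun x0 => Qth Λ a K Q x0)
      (fun x0 k x z => fC v (kF Λ a K F) x0 k z x) (cP + 2)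
      (8 * Λ * (cP + 2) * del * e ^ 2 * A2 K a x1 x3 * 8 ^ K)
      (4 * Λ * (cP + 2) * e * A2 K a x1 x3 * 8 ^ K) := by
  have h0 := famK_C hΛ he hcP h hK (fun x hx z hz => ⟨(ha x hx z hz).1, (ha x hx z hz).2.2⟩) t
  refine {
    path := h0.path
    zero := h0.zero
    pack := h0.pack
    own := ?_
    pow := h0.pow }
  refine (sum_le_sum fun x0 _ => ownK_leD (D := D) (fun x hx z hz => ?_) x0 _).trans
    (own_D hΛ he h hK t x1 x3 hdel (fun x hx z hz => ⟨(ha x hx z hz).1, (ha x hx z hz).2.1⟩)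
      hcol)
  unfold aD
  split_ifs with hD
  · exact ⟨(ha x hx z hz).1, (ha x hx z hz).2.2⟩
  · refine ⟨le_rfl, ?_⟩
    rw [hv0 x hx z hz hD]
    simp

/-- **Class data**: the part of `v` on `D` with columns at most `del`, in the letters of
`H205.NS_nf3_le`. -/
theorem famK_DCls {n : ℕ} {ez cP s r P del : ℝ} {U : PL.H315.Tri} {g : ℤ → ℤ → ℝ}
    {u v vD : ℤ → ℤ → κ → ℝ} {F2 : ℕ → Pt → ℝ} {x : Pt} (hΛ : 1 ≤ Λ) (hcP : 0 ≤ cP)
    (h : ES n ez cP F2) (hK : K ≤ n) (hc : H305.Cls K x s r P U g u v) (hdel : 0 ≤ del)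
    (hv : ∀ z ∈ PL.H315.iv K x.1, ∀ y ∈ PL.H315.iv K x.2.2, vD z y ⬝ᵥ vD z y ≤ v z y ⬝ᵥ v z y)
    (hv0 : ∀ z ∈ PL.H315.iv K x.1, ∀ y ∈ PL.H315.iv K x.2.2, ¬ D z y → vD z y = 0)
    (hcol : ∀ j ≤ K, ∀ z ∈ PL.H315.iv K x.1, ∀ y ∈ PL.H315.iv K x.2.2,
      ¬ sst Λ U.2.1 K j z y →
      ∑ z' ∈ iv j (ix j z), (if D z' y then (1 : ℝ) else 0) ≤ del * 2 ^ j) :
    ∃ Q : ℕ → Pt → Prop, ∀ t : ℤ,
    FamK K (cx K x).1 (cx K x).2.2 (iv K t) (fun x0 => Qth Λ U.2.1 K Q x0)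
      (fun x0 k x z => fC vD (kF Λ U.2.1 K F2) x0 k z x) (cP + 2)
      (8 * Λ * (cP + 2) * del * ez ^ 2 * s * 8 ^ K)
      (4 * Λ * (cP + 2) * ez * s * 8 ^ K) := by
  obtain ⟨he, Q, hB⟩ := h
  refine ⟨Q, fun t => ?_⟩
  have hin : ∀ z ∈ iv K (ix K x.1), ∀ y ∈ iv K (ix K x.2.2), 0 ≤ U.2.1 (z, y) ∧
      U.2.1 (z, y) ≤ 1 ∧ vD z y ⬝ᵥ vD z y ≤ U.2.1 (z, y) ^ 2 := by
    intro z hz y hy
    rw [← H769.iv_pt] at hz hy
    have h1 := hc.U_v z hz y hy
    exact ⟨h1.1, h1.2, (hv z hz y hy).trans (hc.v_le z hz y hy)⟩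
  have h1 := famK_D (D := D) hΛ he hcP hB hK hdel hin
    (fun z hz y hy => hv0 z (by rwa [H769.iv_pt]) y (by rwa [H769.iv_pt]))
    (fun j hj z hz y hy => hcol j hj z (by rwa [H769.iv_pt]) y (by rwa [H769.iv_pt])) t
  have h0 : 0 ≤ A2 K U.2.1 x.1 x.2.2 := PL.H315.A2_nonneg _ _ _ _
  have hs : A2 K U.2.1 x.1 x.2.2 ≤ s := hc.U_v2
  have hc0 : 0 ≤ cP + 2 := by linarith
  have hΛ0 : 0 ≤ Λ := by linarith
  exact {
    path := h1.path
    zero := h1.zero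
    pack := h1.pack
    own := h1.own.trans (by gcongr)
    pow := h1.pow.trans (by gcongr) }

end

end Vale.Agent.P141.H475
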